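import Vale.Agent.P235.K5.EX.Defs
import Vale.Agent.P235.K5.H237.TriIso

set_option autoImplicit false

/-!
# P235, line EX, [E1]: `triIso` of helper237 with an arbitrary centre constant
-/

namespace Vale.Agent.P235.K5.EX.H489

open SimpleGraph Vale.Agent.P235 Vale.Agent.P235.H134 Vale.Agent.P235.H56 Vale.Agent.P235.K5
open Vale.Agent.P235.K5.H237 (LipE dual mm tt gg rr tt_nonneg tt_le gg_nonneg gg_le rr_le rr_symm
  rr_self rr_nonneg rr_tri rr_lip three one isL1_lim)
open Filter Topology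

variable {V : Type}

/-- The three maps together, with an error `ε` on the triangle. -/
lemma step {G : SimpleGraph V} {d : V → V → ℝ} {c K : ℝ} (hc : 0 < c) (hK : 1 ≤ K) (hE : EdgeExact G c)
    (hd : IsMet d) (hG : Gen G d) {a b e : V} (hab : G.Adj a b) (hae : G.Adj a e)
    (hbe : G.Adj b e) {P Q S : ℝ} (eab : P + Q = d a b) (eae : P + S = d a e)
    (ebe : Q + S = d b e) (hP : 0 ≤ P) (hQ : 0 ≤ Q) (hS : 0 ≤ S)
    (hC : ∀ x y t, d x a ≤ P + t → d x b ≤ Q + t → d x e ≤ S + t → d y a ≤ P + t →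
      d y b ≤ Q + t → d y e ≤ S + t → d x y ≤ K * t)
    {ε : ℝ} (hε : 0 < ε) (hε1 : ε < 1) :
    ∃ F : V → V → ℝ, IsL1 F ∧ (∀ x y, F x y ≤ d x y) ∧ (∀ x y, c / (3 * K) * d x y ≤ F x y) ∧
      d a b - ε * (3 * (P + Q + S)) ≤ F a b ∧ d a e - ε * (3 * (P + Q + S)) ≤ F a e ∧
      d b e - ε * (3 * (P + Q + S)) ≤ F b e := by
  have hT := three hd eab.le eae.le ebe.le
  obtain ⟨F1, hF1, e1, x1, l1⟩ := one hc hE hd hG (q := e) (C := S) hab (A := P) (B := Q)
    (by linarith) (by linarith) hP hQ (fun u v => hT u v) hε hε1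
  obtain ⟨F2, hF2, e2, x2, l2⟩ := one hc hE hd hG (q := b) (C := Q) hae (A := P) (B := S)
    (by linarith) (by linarith) hP hS (fun u v => by linarith [hT u v]) hε hε1
  obtain ⟨F3, hF3, e3, x3, l3⟩ := one hc hE hd hG (q := a) (C := P) hbe (A := Q) (B := S)
    (by linarith) (by linarith) hQ hS (fun u v => by linarith [hT u v]) hε hε1
  have hF : IsL1 (fun x y => F1 x y + F2 x y + F3 x y) := (hF1.add hF2).add hF3
  have hFd : ∀ x y, F1 x y + F2 x y + F3 x y ≤ d x y := by
    intro x y
    have h1 : ∀ u v, G.Adj u v → F1 u v + F2 u v + F3 u v ≤ d u v := by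
      intro u v huv
      have h1 := e1 u v huv
      have h2 := e2 u v huv
      have h3 := e3 u v huv
      nlinarith [h1, h2, h3]
    have h2 := hG (fun z => F1 z y + F2 z y + F3 z y) (fun u v huv =>
      (hF.abs_sub_le u v y).trans (h1 u v huv)) x y
    simp only [hF1.self, hF2.self, hF3.self, add_zero, sub_zero] at h2
    exact (le_abs_self _).trans h2
  refine ⟨_, hF, hFd, ?_, ?_, ?_, ?_⟩
  · intro x y
    have n1 := rr_nonneg hd e S x y
    have n2 := rr_nonneg hd b Q x y
    have n3 := rr_nonneg hd a P x y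
    have hlow : c / 3 * (rr d a P x y + rr d b Q x y + rr d e S x y) ≤
        F1 x y + F2 x y + F3 x y := by
      have h1 := l1 x y
      have h2 := l2 x y
      have h3 := l3 x y
      have h4 : c / 3 * (rr d a P x y + rr d b Q x y + rr d e S x y) =
        c / 3 * rr d a P x y + c / 3 * rr d b Q x y + c / 3 * rr d e S x y := by ring
      linarith
    have key : d x y ≤ K * (rr d a P x y + rr d b Q x y + rr d e S x y) := by
      have hmul : rr d a P x y + rr d b Q x y + rr d e S x y ≤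
          K * (rr d a P x y + rr d b Q x y + rr d e S x y) :=
        le_mul_of_one_le_left (by linarith) hK
      rcases le_total (d x y) (gg d a P x + gg d a P y) with h1 | h1
      · have h2 : rr d a P x y = d x y := min_eq_left h1
        linarith [hd.nonneg x y]
      rcases le_total (d x y) (gg d b Q x + gg d b Q y) with h2 | h2
      · have h3 : rr d b Q x y = d x y := min_eq_left h2
        linarith [hd.nonneg x y]
      rcases le_total (d x y) (gg d e S x + gg d e S y) with h3 | h3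
      · have h4 : rr d e S x y = d x y := min_eq_left h3
        linarith [hd.nonneg x y]
      have r1 : rr d a P x y = gg d a P x + gg d a P y := min_eq_right h1
      have r2 : rr d b Q x y = gg d b Q x + gg d b Q y := min_eq_right h2
      have r3 : rr d e S x y = gg d e S x + gg d e S y := min_eq_right h3
      have g1 : ∀ z, d z a - P ≤ gg d a P z := fun z => le_max_left _ _
      have g2 : ∀ z, d z b - Q ≤ gg d b Q z := fun z => le_max_left _ _
      have g3 : ∀ z, d z e - S ≤ gg d e S z := fun z => le_max_left _ _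
      have p1 := gg_nonneg (d := d) a P x
      have p2 := gg_nonneg (d := d) a P y
      have p3 := gg_nonneg (d := d) b Q x
      have p4 := gg_nonneg (d := d) b Q y
      have p5 := gg_nonneg (d := d) e S x
      have p6 := gg_nonneg (d := d) e S y
      exact hC x y _ (by linarith [g1 x]) (by linarith [g2 x]) (by linarith [g3 x])
        (by linarith [g1 y]) (by linarith [g2 y]) (by linarith [g3 y])
    have hK0 : 0 < K := by linarith
    have h5 := mul_le_mul_of_nonneg_left key (show 0 ≤ c / (3 * K) by positivity)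
    have h6 : c / (3 * K) * (K * (rr d a P x y + rr d b Q x y + rr d e S x y)) =
      c / 3 * (rr d a P x y + rr d b Q x y + rr d e S x y) := by
      field_simp
    linarith
  all_goals
    have a1 := hFd a b
    have a2 := hFd a e
    have a3 := hFd b e
    have t1 := hF1.tri a e b
    have t2 := hF2.tri a b e
    have t3 := hF3.tri b a e
    rw [hF1.symm e b] at t1
    rw [hF3.symm b a] at t3
    have s1 : (1 - ε) * ((P + Q) / 2) = (P + Q) / 2 - (ε * P + ε * Q) / 2 := by ring
    have s2 : (1 - ε) * ((P + S) / 2) = (P + S) / 2 - (ε * P + ε * S) / 2 := by ring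
    have s3 : (1 - ε) * ((Q + S) / 2) = (Q + S) / 2 - (ε * Q + ε * S) / 2 := by ring
    have s4 : ε * (3 * (P + Q + S)) = 3 * (ε * P) + 3 * (ε * Q) + 3 * (ε * S) := by ring
    have m1 := mul_nonneg hε.le hP
    have m2 := mul_nonneg hε.le hQ
    have m3 := mul_nonneg hε.le hS
    rw [s1] at x1
    rw [s2] at x2
    rw [s3] at x3
    rw [s4]
    linarith

/-- The triangle, with named vertices. -/
theorem tri_abe [Finite V] {G : SimpleGraph V} {d : V → V → ℝ} {c K : ℝ} (hc : 0 < c) (hK : 1 ≤ K)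
    (hE : EdgeExact G c) (hd : IsMet d) (hG : Gen G d) {a b e : V} (hab : G.Adj a b)
    (hae : G.Adj a e) (hbe : G.Adj b e) {P Q S : ℝ} (eab : P + Q = d a b)
    (eae : P + S = d a e) (ebe : Q + S = d b e)
    (hC : ∀ x y t, d x a ≤ P + t → d x b ≤ Q + t → d x e ≤ S + t → d y a ≤ P + t →
      d y b ≤ Q + t → d y e ≤ S + t → d x y ≤ K * t) :
    ∃ F : V → V → ℝ, IsL1 F ∧ F a b = d a b ∧ F a e = d a e ∧ F b e = d b e ∧
      (∀ x y, c / (3 * K) * d x y ≤ F x y) ∧ ∀ x y, F x y ≤ d x y := by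
  classical
  have hP : 0 ≤ P := by
    have := hd.tri b a e
    rw [hd.symm b a] at this
    linarith
  have hQ : 0 ≤ Q := by
    have := hd.tri a b e
    linarith
  have hS : 0 ≤ S := by
    have := hd.tri a e b
    rw [hd.symm e b] at this
    linarith
  set K' : ℝ := 3 * (P + Q + S) with hK'
  have hK0 : 0 ≤ K' := by positivity
  let J : V → V → ℝ := fun x y => if (x = a ∧ y = b) ∨ (x = a ∧ y = e) ∨ (x = b ∧ y = e) then
    d x y else 0
  have hlim : ∀ x y, Tendsto (fun n : ℕ => max (c / (3 * K) * d x y)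
      (J x y - 1 / ((n : ℝ) + 1) / 2 * K')) atTop (𝓝 (max (c / (3 * K) * d x y) (J x y))) := by
    intro x y
    have h1 : Tendsto (fun n : ℕ => J x y - 1 / ((n : ℝ) + 1) / 2 * K') atTop
        (𝓝 (J x y - 0 / 2 * K')) :=
      tendsto_const_nhds.sub ((tendsto_one_div_add_atTop_nhds_zero_nat.div_const 2).mul_const K')
    rw [zero_div, zero_mul, sub_zero] at h1
    exact tendsto_const_nhds.max h1
  obtain ⟨F, hF, hFd, hFl⟩ := isL1_lim (d := d) hlim (by
    intro n
    have hn : (0 : ℝ) < (n : ℝ) + 1 := by positivity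
    have h1 : 0 < 1 / ((n : ℝ) + 1) / 2 := by positivity
    have h2 : 1 / ((n : ℝ) + 1) / 2 < 1 := by
      have h3 : 1 / ((n : ℝ) + 1) ≤ 1 := by
        rw [div_le_one hn]
        have : (0 : ℝ) ≤ n := Nat.cast_nonneg n
        linarith
      linarith
    obtain ⟨F, hF, hFd, hFl, f1, f2, f3⟩ := step hc hK hE hd hG hab hae hbe eab eae ebe hP hQ hS hC
      h1 h2
    refine ⟨F, hF, hFd, fun x y => max_le (hFl x y) ?_⟩
    have h4 := mul_nonneg h1.le hK0
    simp only [J]
    split_ifs with hJ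
    · rcases hJ with ⟨rfl, rfl⟩ | ⟨rfl, rfl⟩ | ⟨rfl, rfl⟩
      · exact f1
      · exact f2
      · exact f3
    · linarith [hF.nonneg x y])
  refine ⟨F, hF, ?_, ?_, ?_, fun x y => (le_max_left _ _).trans (hFl x y), hFd⟩
  · apply le_antisymm (hFd a b)
    have h1 : J a b ≤ F a b := (le_max_right _ _).trans (hFl a b)
    have h2 : J a b = d a b := if_pos (Or.inl ⟨rfl, rfl⟩)
    rwa [h2] at h1
  · apply le_antisymm (hFd a e)
    have h1 : J a e ≤ F a e := (le_max_right _ _).trans (hFl a e)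
    have h2 : J a e = d a e := if_pos (Or.inr (Or.inl ⟨rfl, rfl⟩))
    rwa [h2] at h1
  · apply le_antisymm (hFd b e)
    have h1 : J b e ≤ F b e := (le_max_right _ _).trans (hFl b e)
    have h2 : J b e = d b e := if_pos (Or.inr (Or.inr ⟨rfl, rfl⟩))
    rwa [h2] at h1

/-- **(b) TRIISO.** -/
theorem triIsoK [Finite V] {G : SimpleGraph V} {c K : ℝ} (hc : 0 < c) (hK : 1 ≤ K) (hE : EdgeExact G c)
    {d : V → V → ℝ} (hd : IsMet d) (hG : Gen G d) {R : Fin 3 → V}
    (hR : ∀ i j, i ≠ j → G.Adj (R i) (R j))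
    (hC : ∀ x y t, (∀ i, d x (R i) ≤ gp d R i + t) → (∀ i, d y (R i) ≤ gp d R i + t) →
      d x y ≤ K * t) :
    ∃ F : V → V → ℝ, IsL1 F ∧ (∀ i j, F (R i) (R j) = d (R i) (R j)) ∧
      (∀ x y, c / (3 * K) * d x y ≤ F x y) ∧ ∀ x y, F x y ≤ d x y := by
  have g0 : gp d R 0 = (d (R 0) (R 1) + d (R 0) (R 2) - d (R 1) (R 2)) / 2 := rfl
  have g1 : gp d R 1 = (d (R 1) (R 2) + d (R 1) (R 0) - d (R 2) (R 0)) / 2 := rfl
  have g2 : gp d R 2 = (d (R 2) (R 0) + d (R 2) (R 1) - d (R 0) (R 1)) / 2 := rfl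
  have s10 := hd.symm (R 1) (R 0)
  have s20 := hd.symm (R 2) (R 0)
  have s21 := hd.symm (R 2) (R 1)
  obtain ⟨F, hF, h01, h02, h12, hl, hu⟩ := tri_abe hc hK hE hd hG (hR 0 1 (by decide))
    (hR 0 2 (by decide)) (hR 1 2 (by decide)) (P := gp d R 0) (Q := gp d R 1) (S := gp d R 2)
    (by rw [g0, g1]; linarith) (by rw [g0, g2]; linarith) (by rw [g1, g2]; linarith)
    (fun x y t x0 x1 x2 y0 y1 y2 => hC x y t
      (fun i => by fin_cases i; exacts [x0, x1, x2]) fun i => by fin_cases i; exacts [y0, y1, y2])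
  refine ⟨F, hF, fun i j => ?_, hl, hu⟩
  fin_cases i <;> fin_cases j
  · exact (hF.self _).trans (hd.self _).symm
  · exact h01
  · exact h02
  · exact (hF.symm _ _).trans (h01.trans (hd.symm _ _))
  · exact (hF.self _).trans (hd.self _).symm
  · exact h12
  · exact (hF.symm _ _).trans (h02.trans (hd.symm _ _))
  · exact (hF.symm _ _).trans (h12.trans (hd.symm _ _))
  · exact (hF.self _).trans (hd.self _).symm


/-- [E1] -/
theorem triK : TriKStmt := by
  intro V _ G c K hc hK hE d hd hG R hR hC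
  exact triIsoK hc (by linarith) hE hd hG hR hC

end Vale.Agent.P235.K5.EX.H489
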